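import Mathlib.Analysis.SpecialFunctions.Exponential
import Mathlib.Analysis.Calculus.InverseFunctionTheorem.FDeriv
import Mathlib.Analysis.Calculus.MeanValue
import Mathlib.Analysis.Normed.Module.FiniteDimension

/-!
Logarithms of operators which preserve a trilinear form.
-/

open NormedSpace Filter Topology

namespace Vale.Agent.P011.H984.Rl

section log

variable {R : Type} [NormedRing R] [NormedAlgebra ℝ R] [CompleteSpace R]

/-- The exponential is injective near zero and onto a neighbourhood of one. -/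
theorem exists_delta : ∃ δ : ℝ, 0 < δ ∧
    (∀ X Y : R, ‖X‖ < δ → ‖Y‖ < δ → exp X = exp Y → X = Y) ∧
    ∀ η : ℝ, 0 < η → ∃ ε : ℝ, 0 < ε ∧ ∀ g : R, ‖g - 1‖ < ε → ∃ X : R, ‖X‖ < η ∧ exp X = g := by
  have h : HasStrictFDerivAt (exp : R → R)
      ((ContinuousLinearEquiv.refl ℝ R : R ≃L[ℝ] R) : R →L[ℝ] R) 0 :=
    hasStrictFDerivAt_exp_zero (𝕂 := ℝ)
  have h1 := h.eventually_left_inverse
  have h2 := h.eventually_right_inverse
  have h3 := h.localInverse_tendsto
  have h0 : (exp (0 : R) : R) = 1 := exp_zero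
  rw [h0] at h2 h3
  obtain ⟨δ, hδ, h4⟩ := Metric.eventually_nhds_iff.mp h1
  refine ⟨δ, hδ, fun X Y hX hY hXY => ?_, fun η hη => ?_⟩
  · have e1 := h4 (y := X) (by rwa [dist_zero_right])
    have e2 := h4 (y := Y) (by rwa [dist_zero_right])
    rw [← e1, hXY, e2]
  · obtain ⟨ε, hε, h5⟩ := Metric.eventually_nhds_iff.mp
      (h2.and (h3.eventually (Metric.ball_mem_nhds 0 hη)))
    refine ⟨ε, hε, fun g hg => ?_⟩
    obtain ⟨h6, h7⟩ := h5 (by rwa [dist_eq_norm])
    exact ⟨_, by simpa [dist_zero_right] using h7, h6⟩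

/-- Elements which commute with `exp X` commute with `X`, if `X` is small. -/
theorem exists_delta_comm : ∃ δ : ℝ, 0 < δ ∧ ∀ X : R, ‖X‖ < δ → ∀ a : R,
    a * exp X = exp X * a → a * X = X * a := by
  obtain ⟨δ, hδ, h1, -⟩ := exists_delta (R := R)
  refine ⟨δ, hδ, fun X hX a ha => ?_⟩
  let _ : NormedAlgebra ℚ R := NormedAlgebra.restrictScalars ℚ ℝ R
  -- the units near one
  have hu : Tendsto (fun s : ℝ => 1 + s • a) (𝓝 0) (𝓝 1) := by
    have h2 : Continuous fun s : ℝ => (1 : R) + s • a := by fun_prop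
    have h3 := h2.tendsto 0
    rwa [zero_smul, add_zero] at h3
  have h2 : ∀ᶠ s : ℝ in 𝓝 0, IsUnit (1 + s • a) := by
    apply hu.eventually
    have h3 := Units.nhds (1 : Rˣ)
    exact h3
  have h3 : ∀ᶠ s : ℝ in 𝓝 0, ‖(1 + s • a) * X * Ring.inverse (1 + s • a)‖ < δ := by
    have h4 : Tendsto (fun s : ℝ => (1 + s • a) * X * Ring.inverse (1 + s • a)) (𝓝 0)
        (𝓝 (1 * X * Ring.inverse 1)) := by
      refine (hu.mul_const X).mul ?_
      have h5 := NormedRing.inverse_continuousAt (1 : Rˣ)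
      exact h5.tendsto.comp hu
    rw [Ring.inverse_one, one_mul, mul_one] at h4
    exact h4.norm.eventually (gt_mem_nhds hX)
  have h4 : ∀ᶠ s : ℝ in 𝓝[≠] 0, s ≠ 0 := eventually_mem_nhdsWithin
  obtain ⟨s, ⟨h5, h6⟩, h7⟩ := (((h2.and h3).filter_mono nhdsWithin_le_nhds).and h4).exists
  obtain ⟨u, hu⟩ := h5
  have hc : (u : R) * exp X = exp X * u := by
    rw [hu, add_mul, mul_add, one_mul, mul_one, smul_mul_assoc, ha, mul_smul_comm]
  have h8 : exp ((u : R) * X * (u⁻¹ : Rˣ)) = exp X := by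
    rw [exp_units_conj, hc, mul_assoc, Units.mul_inv, mul_one]
  have h9 : (u : R) * X * (u⁻¹ : Rˣ) = X := by
    refine h1 _ _ ?_ hX h8
    rwa [← hu, Ring.inverse_unit] at h6
  have h10 : (u : R) * X = X * u := by
    conv_rhs => rw [← h9, mul_assoc, Units.inv_mul, mul_one]
  rw [hu, add_mul, mul_add, one_mul, mul_one, add_right_inj, smul_mul_assoc,
    mul_smul_comm] at h10
  exact smul_right_injective R h7 h10

/-- **Logarithms.** -/
theorem exists_log (η : ℝ) (hη : 0 < η) : ∃ ε : ℝ, 0 < ε ∧ ∀ g : R, ‖g - 1‖ < ε →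
    ∃ X : R, ‖X‖ < η ∧ exp X = g ∧ ∀ a : R, a * g = g * a → a * X = X * a := by
  obtain ⟨δ, hδ, h1⟩ := exists_delta_comm (R := R)
  obtain ⟨_, _, _, h2⟩ := exists_delta (R := R)
  obtain ⟨ε, hε, h3⟩ := h2 (min η δ) (lt_min hη hδ)
  refine ⟨ε, hε, fun g hg => ?_⟩
  obtain ⟨X, hX, rfl⟩ := h3 g hg
  exact ⟨X, hX.trans_le (min_le_left _ _), rfl, fun a ha =>
    h1 X (hX.trans_le (min_le_right _ _)) a ha⟩

/-- The one-parameter group of a small element is near one. -/
theorem exists_small (η : ℝ) (hη : 0 < η) : ∃ δ : ℝ, 0 < δ ∧ ∀ X : R, ‖X‖ < δ →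
    ∀ t : ℝ, 0 ≤ t → t ≤ 1 → ‖exp (t • X) - 1‖ < η := by
  let _ : NormedAlgebra ℚ R := NormedAlgebra.restrictScalars ℚ ℝ R
  have h1 : Tendsto (fun X : R => exp X - 1) (𝓝 0) (𝓝 0) := by
    have h2 := (exp_continuous (𝔸 := R)).tendsto 0
    rw [exp_zero] at h2
    simpa using h2.sub_const 1
  obtain ⟨δ, hδ, h3⟩ := Metric.eventually_nhds_iff.mp (h1.eventually (Metric.ball_mem_nhds 0 hη))
  refine ⟨δ, hδ, fun X hX t h0 h4 => ?_⟩
  have h5 : ‖t • X‖ < δ := by
    rw [norm_smul, Real.norm_of_nonneg h0]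
    exact (mul_le_of_le_one_left (norm_nonneg X) h4).trans_lt hX
  have h6 := h3 (y := t • X) (by rwa [dist_zero_right])
  simpa [dist_zero_right] using h6

end log

section tri

variable {V W : Type} [NormedAddCommGroup V] [NormedSpace ℝ V]
  [NormedAddCommGroup W] [NormedSpace ℝ W]

/-- The function is bounded by `C`. -/
def Bd (C : ℝ) (M : V → V → V → W) : Prop := ∀ x y z, ‖M x y z‖ ≤ C * ‖x‖ * ‖y‖ * ‖z‖

/-- A function that is real linear in each of three variables. -/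
structure Tri {V W : Type} [AddCommGroup V] [Module ℝ V] [AddCommGroup W] [Module ℝ W]
    (N : V → V → V → W) : Prop where
  one : ∀ y z, IsLinearMap ℝ fun x => N x y z
  two : ∀ x z, IsLinearMap ℝ fun y => N x y z
  three : ∀ x y, IsLinearMap ℝ fun z => N x y z

theorem near_bound {M : V → V → V → W} (hM : Tri M) {C : ℝ} (hC : 0 ≤ C) (hb : Bd C M)
    {U : V →L[ℝ] V} (hU : ‖U - 1‖ < 1 / 8) (x y z : V) :
    ‖M (U x) (U y) (U z) - M x y z‖ ≤ 7 / 8 * C * ‖x‖ * ‖y‖ * ‖z‖ := by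
  have h1 : ∀ v : V, ‖U v - v‖ ≤ 1 / 8 * ‖v‖ := fun v =>
    ((U - 1).le_opNorm v).trans (by gcongr)
  have h2 : ∀ v : V, ‖U v‖ ≤ 9 / 8 * ‖v‖ := fun v => by
    calc ‖U v‖ = ‖(U v - v) + v‖ := by rw [sub_add_cancel]
      _ ≤ ‖U v - v‖ + ‖v‖ := norm_add_le _ _
      _ ≤ 1 / 8 * ‖v‖ + ‖v‖ := by gcongr; exact h1 v
      _ = 9 / 8 * ‖v‖ := by ring
  have h3 : M (U x) (U y) (U z) - M x y z =
      M (U x - x) (U y) (U z) + M x (U y - y) (U z) + M x y (U z - z) := by
    have e1 := (hM.one (U y) (U z)).map_sub (U x) x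
    have e2 := (hM.two x (U z)).map_sub (U y) y
    have e3 := (hM.three x y).map_sub (U z) z
    rw [e1, e2, e3]
    abel
  have hx := norm_nonneg x
  have hy := norm_nonneg y
  have hz := norm_nonneg z
  rw [h3]
  calc ‖M (U x - x) (U y) (U z) + M x (U y - y) (U z) + M x y (U z - z)‖
      ≤ ‖M (U x - x) (U y) (U z)‖ + ‖M x (U y - y) (U z)‖ + ‖M x y (U z - z)‖ := norm_add₃_le
    _ ≤ C * (1 / 8 * ‖x‖) * (9 / 8 * ‖y‖) * (9 / 8 * ‖z‖) +
        C * ‖x‖ * (1 / 8 * ‖y‖) * (9 / 8 * ‖z‖) + C * ‖x‖ * ‖y‖ * (1 / 8 * ‖z‖) := by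
      refine add_le_add (add_le_add ((hb _ _ _).trans ?_) ((hb _ _ _).trans ?_))
        ((hb _ _ _).trans ?_)
      · exact mul_le_mul (mul_le_mul (mul_le_mul_of_nonneg_left (h1 x) hC) (h2 y)
          (norm_nonneg _) (by positivity)) (h2 z) (norm_nonneg _) (by positivity)
      · exact mul_le_mul (mul_le_mul_of_nonneg_left (h1 y) (by positivity)) (h2 z)
          (norm_nonneg _) (by positivity)
      · exact mul_le_mul_of_nonneg_left (h1 z) (by positivity)
    _ ≤ 7 / 8 * C * ‖x‖ * ‖y‖ * ‖z‖ := by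
      have h4 : 0 ≤ C * ‖x‖ * ‖y‖ * ‖z‖ := by positivity
      nlinarith [h4]

/-- The derivative of a trilinear form. -/
def dN (N : V → V → V → W) (X : V →L[ℝ] V) (x y z : V) : W :=
  N (X x) y z + N x (X y) z + N x y (X z)

theorem Tri.dN {N : V → V → V → W} (h : Tri N) (X : V →L[ℝ] V) : Tri (dN N X) where
  one y z :=
    { map_add := fun x x' => by
        simp only [Rl.dN, map_add, (h.one _ _).map_add]
        abel
      map_smul := fun t x => by
        simp only [Rl.dN, map_smul, (h.one _ _).map_smul, smul_add] }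
  two x z :=
    { map_add := fun y y' => by
        simp only [Rl.dN, map_add, (h.two _ _).map_add]
        abel
      map_smul := fun t y => by
        simp only [Rl.dN, map_smul, (h.two _ _).map_smul, smul_add] }
  three x y :=
    { map_add := fun z z' => by
        simp only [Rl.dN, map_add, (h.three _ _).map_add]
        abel
      map_smul := fun t z => by
        simp only [Rl.dN, map_smul, (h.three _ _).map_smul, smul_add] }

end tri

section fin

variable {V W : Type} [NormedAddCommGroup V] [NormedSpace ℝ V] [FiniteDimensional ℝ V]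
  [NormedAddCommGroup W] [NormedSpace ℝ W]

/-- Bilinear functions as continuous maps. -/
theorem exists_bil {B : V → V → W} (h1 : ∀ y, IsLinearMap ℝ fun x => B x y)
    (h2 : ∀ x, IsLinearMap ℝ fun y => B x y) :
    ∃ B' : V →L[ℝ] V →L[ℝ] W, ∀ x y, B' x y = B x y := by
  let A (x : V) : V →L[ℝ] W := LinearMap.toContinuousLinearMap (IsLinearMap.mk' _ (h2 x))
  have hA : ∀ x y, A x y = B x y := fun x y => rfl
  have hA1 : IsLinearMap ℝ A :=
    { map_add := fun x x' => by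
        ext y
        rw [hA, (h1 y).map_add, add_apply, hA, hA]
      map_smul := fun t x => by
        ext y
        rw [hA, (h1 y).map_smul, smul_apply, hA] }
  exact ⟨LinearMap.toContinuousLinearMap (IsLinearMap.mk' _ hA1), fun x y => rfl⟩

/-- Trilinear functions as continuous maps. -/
theorem Tri.exists_bil {N : V → V → V → W} (h : Tri N) :
    ∃ A : V → V → V →L[ℝ] W, (∀ x y z, A x y z = N x y z) ∧
      (∀ y, IsLinearMap ℝ fun x => A x y) ∧ ∀ x, IsLinearMap ℝ fun y => A x y := by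
  let A (x y : V) : V →L[ℝ] W := LinearMap.toContinuousLinearMap (IsLinearMap.mk' _ (h.three x y))
  have hA : ∀ x y z, A x y z = N x y z := fun x y z => rfl
  refine ⟨A, hA, fun y => ⟨fun x x' => ?_, fun t x => ?_⟩, fun x => ⟨fun y y' => ?_, fun t y => ?_⟩⟩
  · ext z
    rw [hA, (h.one y z).map_add, add_apply, hA, hA]
  · ext z
    rw [hA, (h.one y z).map_smul, smul_apply, hA]
  · ext z
    rw [hA, (h.two x z).map_add, add_apply, hA, hA]
  · ext z
    rw [hA, (h.two x z).map_smul, smul_apply, hA]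

theorem bil_bound {B : V → V → W} (h1 : ∀ y, IsLinearMap ℝ fun x => B x y)
    (h2 : ∀ x, IsLinearMap ℝ fun y => B x y) : ∃ C : ℝ, 0 < C ∧ ∀ x y, ‖B x y‖ ≤ C * ‖x‖ * ‖y‖ := by
  obtain ⟨B', hB⟩ := exists_bil h1 h2
  refine ⟨‖B'‖ + 1, by positivity, fun x y => ?_⟩
  rw [← hB]
  calc ‖B' x y‖ ≤ ‖B'‖ * ‖x‖ * ‖y‖ := B'.le_opNorm₂ x y
    _ ≤ (‖B'‖ + 1) * ‖x‖ * ‖y‖ := by
      gcongr
      linarith

theorem Tri.exists_bd {N : V → V → V → W} (h : Tri N) : ∃ C : ℝ, 0 < C ∧ Bd C N := by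
  obtain ⟨A, hA, h1, h2⟩ := h.exists_bil
  obtain ⟨C, hC, h3⟩ := bil_bound h1 h2
  refine ⟨C, hC, fun x y z => ?_⟩
  rw [← hA]
  calc ‖A x y z‖ ≤ ‖A x y‖ * ‖z‖ := (A x y).le_opNorm z
    _ ≤ C * ‖x‖ * ‖y‖ * ‖z‖ := by
      gcongr
      exact h3 x y

theorem hasDerivAt_bil {B : V → V → W} (h1 : ∀ y, IsLinearMap ℝ fun x => B x y)
    (h2 : ∀ x, IsLinearMap ℝ fun y => B x y) {u v : ℝ → V} {u' v' : V} {t : ℝ}
    (hu : HasDerivAt u u' t) (hv : HasDerivAt v v' t) :
    HasDerivAt (fun s => B (u s) (v s)) (B u' (v t) + B (u t) v') t := by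
  obtain ⟨B', hB⟩ := exists_bil h1 h2
  have h3 : HasDerivAt (fun s : ℝ => B' (u s)) (B' u') t :=
    B'.hasFDerivAt.comp_hasDerivAt t hu
  have h4 := h3.clm_apply hv
  simpa only [hB] using h4

theorem Tri.hasDerivAt {N : V → V → V → W} (h : Tri N) {u v w : ℝ → V} {u' v' w' : V} {t : ℝ}
    (hu : HasDerivAt u u' t) (hv : HasDerivAt v v' t) (hw : HasDerivAt w w' t) :
    HasDerivAt (fun s => N (u s) (v s) (w s))
      (N u' (v t) (w t) + N (u t) v' (w t) + N (u t) (v t) w') t := by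
  obtain ⟨A, hA, h1, h2⟩ := h.exists_bil
  have h3 := (hasDerivAt_bil h1 h2 hu hv).clm_apply hw
  simp only [add_apply, hA] at h3
  exact h3

theorem hasDerivAt_orbit (X : V →L[ℝ] V) (x : V) (t : ℝ) :
    HasDerivAt (fun s : ℝ => exp (s • X) x) (X (exp (t • X) x)) t := by
  have := FiniteDimensional.complete ℝ V
  have h1 := hasDerivAt_exp_smul_const' (𝕂 := ℝ) X t
  exact ((ContinuousLinearMap.apply ℝ V x).hasFDerivAt).comp_hasDerivAt t h1

theorem Tri.hasDerivAt_orbit {N : V → V → V → W} (h : Tri N) (X : V →L[ℝ] V) (x y z : V)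
    (t : ℝ) : HasDerivAt (fun s : ℝ => N (exp (s • X) x) (exp (s • X) y) (exp (s • X) z))
      (Rl.dN N X (exp (t • X) x) (exp (t • X) y) (exp (t • X) z)) t :=
  h.hasDerivAt (Rl.hasDerivAt_orbit X x t) (Rl.hasDerivAt_orbit X y t)
    (Rl.hasDerivAt_orbit X z t)

/-- **The exponential of a derivation** preserves the form. -/
theorem Tri.exp {N : V → V → V → W} (h : Tri N) {X : V →L[ℝ] V}
    (hX : ∀ x y z, N (X x) y z + N x (X y) z + N x y (X z) = 0) (x y z : V) :
    N (NormedSpace.exp X x) (NormedSpace.exp X y) (NormedSpace.exp X z) = N x y z := by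
  have h1 : ∀ t : ℝ, HasDerivAt (fun s : ℝ => N (NormedSpace.exp (s • X) x)
      (NormedSpace.exp (s • X) y) (NormedSpace.exp (s • X) z)) 0 t := by
    intro t
    have h2 := h.hasDerivAt_orbit X x y z t
    rwa [Rl.dN, hX] at h2
  have h2 := is_const_of_deriv_eq_zero (fun t => (h1 t).differentiableAt) (fun t => (h1 t).deriv)
    1 0
  simpa [exp_zero] using h2

/-- **Small logarithms** of the operators which preserve a trilinear form. -/
theorem exists_tri_log : ∃ δ : ℝ, 0 < δ ∧ ∀ X : V →L[ℝ] V, ‖X‖ < δ →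
    ∀ {W : Type} [NormedAddCommGroup W] [NormedSpace ℝ W] (N : V → V → V → W), Tri N →
    (∀ x y z, N (exp X x) (exp X y) (exp X z) = N x y z) →
    ∀ x y z, N (X x) y z + N x (X y) z + N x y (X z) = 0 := by
  have := FiniteDimensional.complete ℝ V
  obtain ⟨δ, hδ, hs⟩ := exists_small (R := V →L[ℝ] V) (1 / 8) (by norm_num)
  refine ⟨δ, hδ, fun X hX {W} _ _ N hT hN => ?_⟩
  have hdT := hT.dN X
  have key : ∀ C : ℝ, 0 ≤ C → Bd C (dN N X) → Bd (7 / 8 * C) (dN N X) := by
    intro C hC hb x y z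
    have h1 : ∀ t ∈ Set.Icc (0 : ℝ) 1, HasDerivWithinAt
        (fun s : ℝ => N (exp (s • X) x) (exp (s • X) y) (exp (s • X) z) - s • dN N X x y z)
        (dN N X (exp (t • X) x) (exp (t • X) y) (exp (t • X) z) - dN N X x y z)
        (Set.Icc (0 : ℝ) 1) t := by
      intro t _
      have h2 : HasDerivAt (fun s : ℝ => s • dN N X x y z) ((1 : ℝ) • dN N X x y z) t :=
        (hasDerivAt_id t).smul_const _
      rw [one_smul] at h2
      exact ((hT.hasDerivAt_orbit X x y z t).sub h2).hasDerivWithinAt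
    have h3 := norm_image_sub_le_of_norm_deriv_le_segment' h1
      (C := 7 / 8 * C * ‖x‖ * ‖y‖ * ‖z‖)
      (fun t ht => near_bound hdT hC hb (hs X hX t ht.1 ht.2.le) x y z) 1
      (Set.right_mem_Icc.mpr zero_le_one)
    simp only [one_smul, zero_smul, exp_zero, sub_zero, mul_one] at h3
    rw [hN] at h3
    have h4 : N x y z - dN N X x y z - N ((1 : V →L[ℝ] V) x) ((1 : V →L[ℝ] V) y)
        ((1 : V →L[ℝ] V) z) = - dN N X x y z := by
      change N x y z - dN N X x y z - N x y z = - dN N X x y z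
      abel
    rw [h4, norm_neg] at h3
    exact h3
  obtain ⟨C, hC, hb⟩ := hdT.exists_bd
  have h5 : ∀ n : ℕ, Bd ((7 / 8) ^ n * C) (dN N X) := by
    intro n
    induction n with
    | zero => simpa using hb
    | succ n ih =>
      have h6 := key _ (by positivity) ih
      rwa [← mul_assoc, ← pow_succ'] at h6
  intro x y z
  have h6 : Tendsto (fun n : ℕ => (7 / 8 : ℝ) ^ n * C * ‖x‖ * ‖y‖ * ‖z‖) atTop (𝓝 0) := by
    have h7 := tendsto_pow_atTop_nhds_zero_of_lt_one (r := (7 / 8 : ℝ)) (by norm_num) (by norm_num)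
    have h8 := (((h7.mul_const C).mul_const ‖x‖).mul_const ‖y‖).mul_const ‖z‖
    simpa using h8
  have h7 : ‖dN N X x y z‖ ≤ 0 := ge_of_tendsto' h6 fun n => h5 n x y z
  exact norm_le_zero_iff.mp h7

/-- **The log lemma**: an operator near one has a small logarithm, which is a derivation for every
trilinear form preserved by the operator, and commutes with everything that commutes with the
operator. -/
theorem log_lemma (η : ℝ) (hη : 0 < η) : ∃ ε : ℝ, 0 < ε ∧ ∀ g : V →L[ℝ] V, ‖g - 1‖ < ε →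
    ∃ X : V →L[ℝ] V, ‖X‖ < η ∧ NormedSpace.exp X = g ∧
      (∀ a : V →L[ℝ] V, a * g = g * a → a * X = X * a) ∧
      ∀ {W : Type} [NormedAddCommGroup W] [NormedSpace ℝ W] (N : V → V → V → W), Tri N →
        (∀ x y z, N (g x) (g y) (g z) = N x y z) →
        ∀ x y z, N (X x) y z + N x (X y) z + N x y (X z) = 0 := by
  have := FiniteDimensional.complete ℝ V
  obtain ⟨δ, hδ, h1⟩ := exists_tri_log (V := V)
  obtain ⟨ε, hε, h2⟩ := exists_log (R := V →L[ℝ] V) (min η δ) (lt_min hη hδ)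
  refine ⟨ε, hε, fun g hg => ?_⟩
  obtain ⟨X, hX, rfl, h3⟩ := h2 g hg
  exact ⟨X, hX.trans_le (min_le_left _ _), rfl, h3, fun {W} _ _ N hN h =>
    h1 X (hX.trans_le (min_le_right _ _)) N hN h⟩

end fin

end Vale.Agent.P011.H984.Rl
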